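import Vale.Agent.P064.MathlibUsed

namespace Vale.Agent.P064

open SimpleGraph MeasureTheory

/-- Probability that the binomial random graph `G(n,p)` has a subgraph isomorphic to `H`. -/
noncomputable def probCopy {W : Type*} (n : ℕ) (H : SimpleGraph W) (p : unitInterval) : ℝ :=
  (binomialRandom (Fin n) p).real {G | 0 < G.copyCount H}

/-- Expected number of subgraphs of `G(n,p)` isomorphic to `F`. -/
noncomputable def expCopy {W : Type*} (n : ℕ) (F : SimpleGraph W) (p : unitInterval) : ℝ :=
  ∫ G, (G.copyCount F : ℝ) ∂(binomialRandom (Fin n) p)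

/-- The threshold `p_c(n,H)`: the least `p` such that `G(n,p)` contains a copy of `H` with
probability at least one half. -/
noncomputable def pc {W : Type*} (n : ℕ) (H : SimpleGraph W) : ℝ :=
  sInf {x : ℝ | ∃ p : unitInterval, (p : ℝ) = x ∧ 1 / 2 ≤ probCopy n H p}

/-- `p_E(n,H)`: the least `p` such that, for every subgraph `F` of `H`, the expected number of
copies of `F` in `G(n,p)` is at least one half. -/
noncomputable def pE {W : Type*} (n : ℕ) (H : SimpleGraph W) : ℝ :=
  sInf {x : ℝ | ∃ p : unitInterval, (p : ℝ) = x ∧ ∀ F : H.Subgraph, 1 / 2 ≤ expCopy n F.coe p}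

/-- The larger parameter: the least `p` such that, for every subgraph `F` of `H`, the expected
number of copies of `F` in `G(n,p)` is at least half the number of copies of `F` in `H`. -/
noncomputable def pEt {W : Type*} [Fintype W] (n : ℕ) (H : SimpleGraph W) : ℝ :=
  sInf {x : ℝ | ∃ p : unitInterval, (p : ℝ) = x ∧
    ∀ F : H.Subgraph, (H.copyCount F.coe : ℝ) / 2 ≤ expCopy n F.coe p}

end Vale.Agent.P064
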